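import Vale.Agent.P144Z.Stmt

/-!
The domain half of Q1: the class of domains and the statement.
-/

namespace Vale.Agent.P144Z

open Filter Topology Vale.Agent.P144

/-- `S` is stable under all translations `v` that make with the unit vector `ν` an angle of cosine
at least `κ`: the region above the graph of a function of small slope, seen in direction `ν`. -/
def Cone (S : Set ℂ) (ν : ℂ) (κ : ℝ) : Prop :=
  ∀ z ∈ S, ∀ v : ℂ, κ * ‖v‖ ≤ v.re * ν.re + v.im * ν.im → z + v ∈ S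

/-- Bounded open sets that are, at small scales and uniformly, an intersection of two regions above
graphs of arbitrarily small slope, whose normals are not closer than `α` to being opposite. -/
def Tame (α : ℝ) (D : Set ℂ) : Prop :=
  IsOpen D ∧ Bornology.IsBounded D ∧ ∀ κ > 0, ∃ r > 0, ∀ z : ℂ, ∃ (S₁ S₂ : Set ℂ) (ν₁ ν₂ : ℂ),
    ‖ν₁‖ = 1 ∧ ‖ν₂‖ = 1 ∧ α ≤ ‖ν₁ + ν₂‖ ∧ Cone S₁ ν₁ κ ∧ Cone S₂ ν₂ κ ∧
      D ∩ Metric.ball z r = S₁ ∩ S₂ ∩ Metric.ball z r

/-- Bounded open sets with continuously differentiable boundary. -/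
def IsC1 (D : Set ℂ) : Prop :=
  Bornology.IsBounded D ∧ ∃ F : ℂ → ℝ, ContDiff ℝ 1 F ∧ D = {z | 0 < F z} ∧
    ∀ z, F z = 0 → fderiv ℝ F z ≠ 0

/-- The free, plus and minus boundary conditions. -/
def StdBC (b : Option (ℝ → Config)) : Prop :=
  b = none ∨ b = some (fun _ _ => true) ∨ b = some (fun _ _ => false)

/-- The difference of the rescaled correlations tends to zero. -/
def Diff (D : Set ℂ) (E₀ E : Fam) (Zσ Zε : ℝ) : Prop :=
  ∀ p, Good D p →
    Tendsto (fun a => corr a (E a) p - Zσ ^ p.n * Zε ^ p.m * corr a (E₀ a) p) (𝓝[>] 0) (𝓝 0)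

/-- Q1 in the plane and in the domains of the class `Tame α`, with the same constants. -/
def DomQ1 : Prop :=
  ∀ α > 0, ∀ J > 0, ∀ V, IsPotential V → ∀ ε > 0, ∃ lam₀ > 0, ∀ lam : ℝ, |lam| < lam₀ →
    ∃ β > 0, ∃ Zσ Zε : ℝ, |β - Kc / J| < ε ∧ |Zσ - 1| < ε ∧ |Zε - 1| < ε ∧ Zσ ≠ 0 ∧ Zε ≠ 0 ∧
      (∃ μ, IsTorusState J lam V β μ ∧ ∀ E₀, PlaneFam J 0 (fun _ => 0) (Kc / J) E₀ →
        Diff Set.univ E₀ (famOf μ) Zσ Zε ∧ Identity Set.univ E₀ (famOf μ) Zσ Zε) ∧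
      ∀ D, Tame α D → ∀ b, StdBC b → Diff D (crit J D b) (inDom J lam V β D b) Zσ Zε ∧
        Identity D (crit J D b) (inDom J lam V β D b) Zσ Zε

end Vale.Agent.P144Z
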