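import Vale.Agent.P144D.DefsB
import Vale.Agent.P144D.Tame
import Vale.Agent.P144D.W.Agree
import Vale.Agent.P144D.LM.Defs

/-!
The domain half of Q1: corrections, correlations in a region and the main statements.
-/

namespace Vale.Agent.P144Z

open Finset Matrix

section

variable {M : ℕ} [NeZero M]

open Classical in
/-- The correction of a region: for the free boundary condition the weight of the outer edges is
set to one and the terms of the interaction that leave the region are dropped. -/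
noncomputable def Reg.cor (R : Reg M) (q : Par) : Cor M := fun X n =>
  if R.fr then
    (∑ e ∈ univ.filter (fun e : Tor M × Fin 2 =>
      ¬ (e.1 ∈ R.In ∧ oth e ∈ R.In) ∧ X = {e.1, e.1 + uv M e.2}),
        if n e then Real.log (tc / q.x) else 0) -
    ∑ y : Tor M, ∑ B ∈ (potSets q.R).filter (fun B =>
      (geo0 M).put y (hull B) = X ∧ ¬ (geo0 M).put y B ⊆ R.In),
        q.μ * q.V B / B.card * spinFn B ((geo0 M).see y n)
  else 0

/-- The mean energy of an edge. -/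
noncomputable def enC (q : Par) (Δ : Cor M) (P : Gauge M) (y : Tor M) (d : Fin 2) : ℝ :=
  ZwC q Δ P (fun c => sgn (c (y, d))) / ZwC q Δ P 1

/-- The mixed correlation with the strings `B`. -/
noncomputable def mixC (q : Par) (Δ : Cor M) (P B : Gauge M) {ι : Type} [Fintype ι]
    (y : ι → Tor M) (d : ι → Fin 2) : ℝ :=
  ZwC q Δ (P * B) (fun c => ∏ k, (sgn (c (y k, d k)) - enC q Δ P (y k) (d k))) / ZwC q Δ P 1

/-- The strings from the base point `a` to the points `hs i`, `i ∈ S`. -/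
noncomputable def holeG (M : ℕ) {H : ℕ} (a : ℤ × ℤ) (hs : Fin H → ℤ × ℤ) (S : Finset (Fin H)) :
    Gauge M := ∏ i ∈ S, strG M a (hs i)

/-- The expectation in a region: the sum over the strings forces the spins at the points `hs i` to
be equal to the spin at `a`. -/
noncomputable def secE (q : Par) (R : Reg M) {H : ℕ} (a : ℤ × ℤ) (hs : Fin H → ℤ × ℤ)
    (Φ : (Tor M × Fin 2 → Bool) → ℝ) : ℝ :=
  (∑ S, ZwC q (R.cor q) (R.pw * holeG M a hs S) Φ) / ∑ S, ZwC q (R.cor q) (R.pw * holeG M a hs S) 1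

/-- Observables that only depend on the edges near the origin. -/
def BoxLoc (T : ℕ) (Φ : (Tor M × Fin 2 → Bool) → ℝ) : Prop :=
  ∀ n n', (∀ e : Tor M × Fin 2, tdist e.1 0 ≤ T → n e = n' e) → Φ n = Φ n'

end

/-- The region of a finite set of sites. -/
def regOf (M : ℕ) (Λ : Finset (ℤ × ℤ)) (fr : Bool) : Reg M := ⟨Λ.image (prj M), fr⟩

/-- The torus with the field `A` and the energy sources `y`. -/
def geoD (M : ℕ) [NeZero M] (A : Gauge M) {ι : Type} [Fintype ι] [DecidableEq ι] (y : ι → Tor M)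
    (d : ι → Fin 2) (J : ℕ) : Geo :=
  { M := M, A := A, K := ι, src := fun k => enSrc (y k) (d k), J := J }

/-- The data of the main estimate in a domain: weights `P`, strings `B` with `n` fluxes in the
region, energies at `y`. -/
structure DomDat {M : ℕ} [NeZero M] (P B : Gauge M) {ι : Type} [Fintype ι] [DecidableEq ι]
    (y : ι → Tor M) (d : ι → Fin 2) (n L J N Λ : ℕ) (c η : ℝ) (n₁ n₂ : ℕ) (Γ : ℝ) : Prop where
  P_ok : IsP P
  str : Str P B (16 * sc L J)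
  sep : (geoD M (P * B) y d J).SepW (8 * sc L J)
  lo : 64 * sc L J ≤ M
  hi : M ≤ Λ * sc L J
  bd : BAll (P * B) L J c η n₁ n₂
  bd0 : BAll P L J c η n₁ n₂
  gap : ∀ φ, φ ⬝ᵥ φ ≤ (Γ * sc L J) ^ 2 * ((Dm P *ᵥ φ) ⬝ᵥ (Dm P *ᵥ φ))
  card : (univ.filter fun f => flux B f = -1).card + Fintype.card ι ≤ N
  cnt : (univ.filter fun f => flux (P * B) f = -1).card = n

/-- The mixed correlations in a domain are those of the nearest-neighbour model up to the two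
constants. -/
def MainR (q : Par) (Zσ Zε : ℝ) (L : ℕ) (c η₁ : ℝ) (n₁ n₂ : ℕ) (γ δ : ℝ) : Prop :=
  ∀ (N Λ : ℕ) (Γ h : ℝ), 1 ≤ Γ → 0 < h → ∃ C : ℝ, ∀ ε > 0, ∃ J₀ : ℕ, ∀ J ≥ J₀,
    ∀ (M : ℕ) [NeZero M] (P B : Gauge M) (Δ : Cor M) (ι : Type) [Fintype ι] [DecidableEq ι]
    (y : ι → Tor M) (d : ι → Fin 2) (n : ℕ) (K : ℝ), DomDat P B y d n L J N Λ c η₁ n₁ n₂ Γ →
    Δ.Ok → Δ.Sm q.R γ δ → Δ.Off P → 0 ≤ K →
    (geoD M (P * B) y d J).LastB (sc L J) h (K * |Zw par0 P 1|) →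
      |mixC q Δ P B y d - Zσ ^ n * Zε ^ Fintype.card ι * mixC par0 0 P B y d| ≤
        ε / (sc L J : ℝ) ^ Fintype.card ι * K ∧
      |mixC par0 0 P B y d| ≤ C / (sc L J : ℝ) ^ Fintype.card ι * K

/-- Universality in the plane and in domains, with the same constants. -/
def MainBoth : Prop :=
  ∀ (c : ℝ) (n₁ : ℕ), 1 ≤ c → ∃ η₁ > 0, ∀ n₂ : ℕ, ∃ L₀ : ℕ, ∀ L ≥ L₀, ∀ ε > 0, ∃ η₀ > 0, ∀ R : ℕ,
    ∃ δ₀ > 0, ∀ q : Par, q.R = R → Crit L q η₀ δ₀ → ∃ Zσ Zε : ℝ, |Zσ - 1| < ε ∧ |Zε - 1| < ε ∧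
      MainOK q Zσ Zε ∧ MainR q Zσ Zε L c η₁ n₁ n₂ η₀ δ₀

/-- The gap without strings and the bound on the last integration. -/
def KStmt : Prop :=
  ∀ n Λ₀ : ℕ, ∃ C Γ h : ℝ, 0 ≤ C ∧ 1 ≤ Γ ∧ 0 < h ∧ ∀ (M : ℕ) [NeZero M] (Λ : Finset (ℤ × ℤ))
    (fr : Bool) (α : ℝ) (T r ℓ H : ℕ) (x : Fin n → ℤ × ℤ) (a : ℤ × ℤ) (hs : Fin H → ℤ × ℤ)
    (S : Finset (Fin H)), Shape (regOf M Λ fr).In α (1 / 8) r → Holes Λ T r a hs → Spins Λ r x →
    (fr = true → H = 0 ∧ Even n) → 2048 ≤ r → 8 ≤ ℓ → ℓ ≤ r → r ≤ T → T ≤ Λ₀ * ℓ → 64 * T ≤ M →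
      (∀ φ, φ ⬝ᵥ φ ≤ (Γ * ℓ) ^ 2 *
        ((Dm (regOf M Λ fr).pw *ᵥ φ) ⬝ᵥ (Dm (regOf M Λ fr).pw *ᵥ φ))) ∧
      ∀ (ι : Type) [Fintype ι] [DecidableEq ι] (y : ι → Tor M) (d : ι → Fin 2) (J : ℕ),
        (geoD M ((regOf M Λ fr).pw * (spinG M a x * holeG M a hs S)) y d J).LastB ℓ h
          (C * (ℓ : ℝ) ^ (-((n : ℝ) / 8)) * |Zw par0 (regOf M Λ fr).pw 1|)

open P144 in
/-- The mixed correlation of spins and centred energies at lattice sites. -/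
noncomputable def lcor (E : (Config → ℝ) → ℝ) {n m : ℕ} (x : Fin n → Site) (y : Fin m → Site)
    (j : Fin m → Fin 2) : ℝ :=
  E fun σ => (∏ i, sp (σ (x i))) * ∏ k, (sp (σ (y k)) * sp (σ (y k + dir (j k))) -
    E fun τ => sp (τ (y k)) * sp (τ (y k + dir (j k))))

open P144 in
/-- Universality for finite sets of sites with free or plus boundary condition. -/
def LatOK (q : Par) (Zσ Zε α κ : ℝ) : Prop :=
  ∀ J lam β : ℝ, 0 < J → q.μ = β * lam → q.x = Real.exp (-(2 * β * J)) → ∀ n m Λ₀ : ℕ, ∀ ε > 0,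
    ∃ r₀ : ℕ, ∀ r ≥ r₀, ∀ (Λ : Finset Site) (b : Option Config) (x : Fin n → Site)
      (y : Fin m → Site) (j : Fin m → Fin 2), (b = none ∨ b = some fun _ => true) →
      ShapeZ Λ α κ r → (∀ v ∈ Λ, zd v 0 ≤ Λ₀ * r) → Spins Λ r (Sum.elim x y) →
        |lcor (gibbs J lam q.V β b Λ) x y j -
          Zσ ^ n * Zε ^ m * lcor (gibbs J 0 (fun _ => 0) (Kc / J) b Λ) x y j| ≤
          ε * (r : ℝ) ^ (-((n : ℝ) / 8)) / (r : ℝ) ^ m

/-- Universality on the lattice, in the plane and in domains. -/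
def LatStmt : Prop :=
  ∀ α > 0, ∃ L₀ : ℕ, ∀ L ≥ L₀, ∃ κ > 0, ∀ ε > 0, ∃ η₀ > 0, ∀ R : ℕ, ∃ δ₀ > 0, ∀ q : Par,
    q.R = R → Crit L q η₀ δ₀ → ∃ Zσ Zε : ℝ, |Zσ - 1| < ε ∧ |Zε - 1| < ε ∧ MainOK q Zσ Zε ∧
      LatOK q Zσ Zε α κ

end Vale.Agent.P144Z
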