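import Vale.Agent.P144D.R8.Defs

/-!
The domain half of Q1: regions, their shape and the analysis at the boundary.
-/

namespace Vale.Agent.P144Z

open Finset Matrix

/-- Weights without signs. -/
def IsP {M : ℕ} (P : Gauge M) : Prop := ∀ e, P e = 0 ∨ P e = 1 ∨ P e = tT

/-- A region: the faces that carry the spins, and the boundary condition (free or plus). -/
structure Reg (M : ℕ) where
  In : Finset (Tor M)
  fr : Bool

/-- The second face of an edge; the first one is `e.1`. -/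
def oth {M : ℕ} (e : Tor M × Fin 2) : Tor M := e.1 - uv M (if e.2 = 0 then 1 else 0)

/-- The weights of a region. -/
noncomputable def Reg.pw {M : ℕ} (R : Reg M) : Gauge M := fun e =>
  if R.fr then (if e.1 ∈ R.In ∧ oth e ∈ R.In then 1 else tT)
  else (if e.1 ∈ R.In ∨ oth e ∈ R.In then 1 else 0)

/-- The strings: signs whose fluxes are separated and lie deep in the region or deep in the
removed part. -/
structure Str {M : ℕ} (P B : Gauge M) (r : ℕ) : Prop where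
  sign : IsSign B
  fl : ∀ f, flux B f = -1 →
    (∀ e, tdist e.1 f ≤ r → P e = 1) ∨ ∀ e, tdist e.1 f ≤ r → P e = 0
  sep : ∀ f f', flux B f = -1 → flux B f' = -1 → f ≠ f' → r < tdist f f'

/-- The boundary estimates at all scales below `J`. -/
structure BAll {M : ℕ} [NeZero M] (A : Gauge M) (L J : ℕ) (c η : ℝ) (n₁ n₂ : ℕ) : Prop where
  zero : Bd A 8 (L * 8) 8 c c (1 / 8) 0 ((6 * L + 1) ^ 2)
  pos : ∀ j, 1 ≤ j → j < J → Bd A (sc L j) (L * sc L j) 8 c η (c / (L : ℝ) ^ 2) (n₁ * L) n₂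

/-! ### The shape of the regions -/

/-- The scalar product of a lattice vector with a vector of the plane. -/
def ht (ν : ℂ) (v : ℤ × ℤ) : ℝ := v.1 * ν.re + v.2 * ν.im

/-- The Euclidean length of a lattice vector. -/
noncomputable def len (v : ℤ × ℤ) : ℝ := √((v.1 : ℝ) ^ 2 + (v.2 : ℝ) ^ 2)

/-- The lattice version of `Cone`. -/
def Epi (S : Set (ℤ × ℤ)) (ν : ℂ) (κ : ℝ) : Prop :=
  ∀ u ∈ S, ∀ v : ℤ × ℤ, κ * len v ≤ ht ν v → u + v ∈ S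

/-- The shape of the region in the square of radius `r` around `z`. -/
def ShapeAt {M : ℕ} (I : Finset (Tor M)) (α κ : ℝ) (r : ℕ) (z : Tor M) : Prop :=
  ∃ (S₁ S₂ : Set (ℤ × ℤ)) (ν₁ ν₂ : ℂ), ‖ν₁‖ = 1 ∧ ‖ν₂‖ = 1 ∧ α ≤ ‖ν₁ + ν₂‖ ∧ Epi S₁ ν₁ κ ∧
    Epi S₂ ν₂ κ ∧ ∀ v : ℤ × ℤ, zd v 0 ≤ r → (z + prj M v ∈ I ↔ v ∈ S₁ ∧ v ∈ S₂)

/-- The lattice version of `Tame`. -/
def Shape {M : ℕ} (I : Finset (Tor M)) (α κ : ℝ) (r : ℕ) : Prop := ∀ z, ShapeAt I α κ r z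

/-- The same in the plane lattice. -/
def ShapeZ (Λ : Finset (ℤ × ℤ)) (α κ : ℝ) (r : ℕ) : Prop :=
  ∀ z : ℤ × ℤ, ∃ (S₁ S₂ : Set (ℤ × ℤ)) (ν₁ ν₂ : ℂ), ‖ν₁‖ = 1 ∧ ‖ν₂‖ = 1 ∧ α ≤ ‖ν₁ + ν₂‖ ∧
    Epi S₁ ν₁ κ ∧ Epi S₂ ν₂ κ ∧ ∀ v : ℤ × ℤ, zd v 0 ≤ r → (z + v ∈ Λ ↔ v ∈ S₁ ∧ v ∈ S₂)

/-- Connection through faces outside the region. -/
def OutConn {M : ℕ} (I : Finset (Tor M)) : Tor M → Tor M → Prop :=
  Relation.ReflTransGen fun u w => u ∉ I ∧ w ∉ I ∧ ∃ i, w = u + uv M i ∨ u = w + uv M i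

/-- Points deep outside `Λ`: the base point `a` and the points `hs i`. -/
structure Holes (Λ : Finset (ℤ × ℤ)) (T r : ℕ) {H : ℕ} (a : ℤ × ℤ) (hs : Fin H → ℤ × ℤ) :
    Prop where
  box : ∀ v ∈ Λ, zd v 0 ≤ T
  a_le : zd a 0 ≤ T
  h_le : ∀ i, zd (hs i) 0 ≤ T
  a_out : ∀ v, zd v a ≤ r → v ∉ Λ
  h_out : ∀ i v, zd v (hs i) ≤ r → v ∉ Λ
  ah : ∀ i, r < zd a (hs i)
  hh : ∀ i i', i ≠ i' → r < zd (hs i) (hs i')

/-- Separated points deep inside `Λ`. -/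
structure Spins (Λ : Finset (ℤ × ℤ)) (r : ℕ) {ι : Type} (x : ι → ℤ × ℤ) : Prop where
  ins : ∀ i v, zd v (x i) ≤ r → v ∈ Λ
  sep : ∀ i i', i ≠ i' → r < zd (x i) (x i')

/-- Change of scale up to the boundary. -/
def ShrStmt : Prop :=
  ∀ α > 0, ∃ c : ℝ, 1 ≤ c ∧ ∀ L : ℕ, ∃ κ > 0, ∀ (M : ℕ) [NeZero M] (R : Reg M) (B : Gauge M)
    (r : ℕ), Shape R.In α κ r → Str R.pw B r → 4 * r ≤ M → ∀ ℓ ℓ' : ℕ, 1 ≤ ℓ → ℓ ≤ ℓ' →
      ℓ' ≤ L * ℓ → 8 * ℓ' ≤ r → ∀ z, (∃ f, tdist f z ≤ ℓ' ∧ |flux (R.pw * B) f| ≠ 1) →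
        RN.Shr (R.pw * B) ℓ ℓ' z (c * √((ℓ : ℝ) / ℓ'))

/-- The boundary estimates. -/
def BdStmt : Prop :=
  ∀ α > 0, ∃ c : ℝ, 1 ≤ c ∧ ∃ n₁ : ℕ, ∀ η > 0, ∃ n₂ L₀ : ℕ, ∀ L ≥ L₀, ∃ κ > 0,
    ∀ (M : ℕ) [NeZero M] (R : Reg M) (B : Gauge M) (r J : ℕ), Shape R.In α κ r → Str R.pw B r →
      4 * r ≤ M → 1 ≤ J → 8 * sc L J ≤ r → BAll (R.pw * B) L J c η n₁ n₂

/-- The spectral gap; for the free boundary condition, modulo the corners of the fluxes. -/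
def GapStmt : Prop :=
  ∀ Λ : ℕ, ∃ Γ : ℝ, 1 ≤ Γ ∧ ∀ (M : ℕ) [NeZero M] (R : Reg M) (B : Gauge M) (α : ℝ) (T r : ℕ),
    Shape R.In α (1 / 8) r → Str R.pw B r → (∀ f ∈ R.In, tdist f 0 ≤ T) →
    (∀ e, T < tdist e.1 0 → B e = 1) → 256 ≤ r → r ≤ T → T ≤ Λ * r → 32 * T ≤ M →
    ∀ (φ : Tor M × Fin 4 → ℝ) (t : Tor M → ℝ),
      (R.fr = true → ∀ f, flux B f = -1 → cnr f ⬝ᵥ φ = 0) →
      (∀ f, t f ≠ 0 → R.fr = true ∧ flux B f = -1) →
        l2sq univ φ ≤ (Γ * T) ^ 2 * l2sq univ (Dm (R.pw * B) *ᵥ φ - ∑ f, t f • cnr f)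

/-! ### The analysis at the boundary -/

section

variable {M : ℕ}

/-- The faces below the height `-w` are outside. -/
def OutH (I : Finset (Tor M)) (z : Tor M) (ν : ℂ) (ρ : ℕ) (w : ℝ) : Prop :=
  ∀ v : ℤ × ℤ, zd v 0 ≤ ρ → ht ν v ≤ -w → z + prj M v ∉ I

/-- The faces above the height `w` are inside. -/
def InH (I : Finset (Tor M)) (z : Tor M) (ν : ℂ) (ρ : ℕ) (w : ℝ) : Prop :=
  ∀ v : ℤ × ℤ, zd v 0 ≤ ρ → w ≤ ht ν v → z + prj M v ∈ I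

/-- The outer faces of the square of radius `s` are connected through the outer faces of the square
of radius `ρ`. -/
def ConnB (I : Finset (Tor M)) (z : Tor M) (s ρ : ℕ) : Prop :=
  ∀ f f', tdist f z ≤ s → tdist f' z ≤ s → f ∉ I → f' ∉ I → Relation.ReflTransGen
    (fun u w => tdist u z ≤ ρ ∧ tdist w z ≤ ρ ∧ u ∉ I ∧ w ∉ I ∧
      ∃ i, w = u + uv M i ∨ u = w + uv M i) f f'

/-- There are inner and outer faces within distance `d` of `x`. -/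
def NearB (I : Finset (Tor M)) (d : ℕ) (x : Tor M) : Prop :=
  (∃ f ∈ I, tdist f x ≤ d) ∧ ∃ f, f ∉ I ∧ tdist f x ≤ d

/-- The boundary layer in the square of radius `ρ` splits in a part with at most `N` points in each
row and a part with at most `N` points in each column. -/
def TrB (I : Finset (Tor M)) (z : Tor M) (ρ N : ℕ) : Prop :=
  ∃ Hs Vs : Finset (Tor M), (∀ x, tdist x z ≤ ρ → NearB I 2 x → x ∈ Hs ∨ x ∈ Vs) ∧
    (∀ t, (Hs.filter fun x => x.2 = t).card ≤ N) ∧ ∀ t, (Vs.filter fun x => x.1 = t).card ≤ N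

variable [NeZero M]

/-- Solutions of the homogeneous equation in the square of radius `ρ`. -/
def Hom (A : Gauge M) (z : Tor M) (ρ : ℕ) (φ : Tor M × Fin 4 → ℝ) : Prop :=
  ∀ s, tdist s.1 z ≤ ρ → (Dm A *ᵥ φ) s = 0

/-- Decay of the homogeneous solutions between the scales `s₀` and `ρ₀`. -/
def HomDec (A : Gauge M) (z : Tor M) (s₀ ρ₀ : ℕ) (c : ℝ) : Prop :=
  ∀ s ρ : ℕ, s₀ ≤ s → s ≤ ρ → ρ ≤ ρ₀ → ∀ φ, Hom A z ρ φ →
    l2sq (ball z s) φ * ρ ^ 2 ≤ c ^ 2 * s ^ 2 * l2sq (ball z ρ) φ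

/-- Local solvability between the scales `s₀` and `ρ₀`. -/
def Solv (A : Gauge M) (z : Tor M) (s₀ ρ₀ : ℕ) (c : ℝ) : Prop :=
  ∀ ρ : ℕ, s₀ ≤ ρ → ρ ≤ ρ₀ → ∀ σ : Tor M × Fin 4 → ℝ, ∃ w,
    l2sq univ w ≤ c ^ 2 * ρ ^ 2 * l2sq (ball z ρ) σ ∧ ∀ t, tdist t.1 z ≤ ρ → (Dm A *ᵥ w) t = σ t

/-- The homogeneous solutions are of rank one at the scale `s`, up to a relative error `η`. -/
def HomRk (A : Gauge M) (z : Tor M) (s ρ : ℕ) (η : ℝ) : Prop :=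
  ∃ u, Hom A z ρ u ∧ ∀ φ, Hom A z ρ φ → ∃ t : ℝ,
    l2sq (ball z s) (φ - t • u) * ρ ^ 2 ≤ η ^ 2 * s ^ 2 * l2sq (ball z ρ) φ

end

/-- The four steps: east, north, west, south. -/
def st4 (a : Fin 4) : ℤ × ℤ := ![(1, 0), (0, 1), (-1, 0), (0, -1)] a

/-- The four corners: the faces at the vertex `x` are the `x - cn k`; the step `a` lies between the
corners `a - 1` and `a`. -/
def cn (k : Fin 4) : ℤ × ℤ := ![(0, 0), (1, 0), (1, 1), (0, 1)] k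

open Classical in
/-- The increments of `u`, with a boundary term on the removed edges. -/
noncomputable def GG (u : ℤ × ℤ → ℝ) (pr : ℤ × ℤ → Fin 4 → Prop) (v : ℤ × ℤ) (a : Fin 4) : ℝ :=
  if pr v a then u (v + st4 a) - u v else -(2 * tc) * u v

/-- A subharmonic function `u` and a superharmonic function `w` on the two dual lattices, in the
square of radius `ρ`; `pr` are the present edges and `w` vanishes on `out`. -/
structure IsPair (ρ : ℕ) (u w : ℤ × ℤ → ℝ) (pr : ℤ × ℤ → Fin 4 → Prop) (out : ℤ × ℤ → Prop) :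
    Prop where
  le : ∀ v k, zd v 0 ≤ ρ → w (v - cn k) ≤ u v
  zero : ∀ v, zd v 0 ≤ ρ + 1 → out v → w v = 0
  rem : ∀ v a, ¬ pr v a → out (v - cn (a - 1)) ∧ out (v - cn a)
  symm : ∀ v a, pr (v + st4 a) (a + 2) ↔ pr v a
  sub : ∀ v, zd v 0 + 1 ≤ ρ → 0 ≤ ∑ a, GG u pr v a
  sup : ∀ v, zd v 0 + 1 ≤ ρ → ¬ out v → ∑ a, (w (v + st4 a) - w v) ≤ 0

section

variable {M : ℕ}

/-- The value of a field at the corner `k` of the vertex `x`. -/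
def chi (φ : Tor M × Fin 4 → ℝ) (x : Tor M) (k : Fin 4) : ℝ := ∑ b, sA k b * φ (x, b) - φ (x, k)

/-- The vertex of the corner `k` of the site `v` of the subharmonic function, seen from `z`: these
sites are the vertices `z + v` (plus) or the faces `z - v` (free). -/
def Reg.vx (R : Reg M) (z : Tor M) (v : ℤ × ℤ) (k : Fin 4) : Tor M :=
  if R.fr then z - prj M (v - cn k) else z + prj M v

/-- The present edges, seen from `z`. -/
def Reg.pr (R : Reg M) (z : Tor M) (v : ℤ × ℤ) (a : Fin 4) : Prop :=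
  if R.fr then z - prj M v ∈ R.In ∧ z - prj M (v + st4 a) ∈ R.In
  else z + prj M (v - cn (a - 1)) ∈ R.In ∨ z + prj M (v - cn a) ∈ R.In

/-- The outer sites of the superharmonic function, seen from `z`. -/
def Reg.out (R : Reg M) (z : Tor M) (v : ℤ × ℤ) : Prop :=
  if R.fr then ∃ k, z - prj M (v + cn k) ∉ R.In else z + prj M v ∉ R.In

end

end Vale.Agent.P144Z
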